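import Vale.Agent.P322.Main
import Vale.Agent.P322.Final

/-! # P322: the Courtade–Kumar inequality for all Boolean functions and all noise levels -/

namespace Vale.Agent.Results.P322.CourtadeKumar

open Vale.P322

/-- The Courtade–Kumar inequality: `I(f(X);Y) ≤ 1 - h₂(ε)` for every `n`, every Boolean
function `f : {-1,1}^n → {-1,1}` and every `ε ∈ [0,1/2]`. -/
theorem result (n : ℕ) (f : (Fin n → ℤˣ) → ℤˣ) (ε : ℝ) (h0 : 0 ≤ ε) (h1 : ε ≤ 1 / 2) :
    mutualInfoBits (jointLaw ε f) ≤ 1 - h2 ε :=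
  final_of_core core n f ε h0 h1

end Vale.Agent.Results.P322.CourtadeKumar
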